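import Vale.Agent.P286EX.Spec
import Vale.Agent.P286EK.Cart
import Vale.Agent.P286EU.Sv

/-!
# The base rings of a chart datum
-/

set_option linter.all false

namespace Vale.Agent.P286EX

open CategoryTheory Vale.Agent.P286 Vale.Agent.P286.St Vale.Agent.P286E Vale.Agent.P286EK
  Vale.Agent.P286EU

noncomputable section

variable {I : Type} [SmallCategory I] {D : CD I}

/-- The diagram of base rings. -/
abbrev XD.rd (xd : XD D) : RD I := @RD.mk I _ D.C D.cr D.alg xd.sm D.κ

/-- The vector fields. -/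
abbrev XD.vfd (xd : XD D) : VF D := ⟨xd.pd, xd.pd_κ⟩

/-- The base of a diagram over the chart datum. -/
abbrev DC.base (B : DC D) (xd : XD D) : Base B.A xd.rd :=
  ⟨B.cf, B.cf_gr, B.cf_d, B.cf_τ⟩

theorem DC.wd_eq (B : DC D) (xd : XD D) : B.wd = wc (B.base xd) := rfl

theorem DC.wd_eqv (B : DC D) (xd : XD D) : EQV B.wd (wc (B.base xd)) := EQV.refl _

/-- A base gives a diagram over the chart datum. -/
abbrev dcOf {A : DD I} {xd : XD D} (b : Base A xd.rd) : DC D := ⟨A, b.ι, b.gr, b.d, b.τ_ι⟩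

theorem dcOf_wd {A : DD I} {xd : XD D} (b : Base A xd.rd) : (dcOf b).wd = wc b := rfl

end

end Vale.Agent.P286EX
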