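import Vale.Agent.P286E48.Ch
import Vale.Agent.P286EU.MidT
import Vale.Agent.P286EL.Xd

/-!
# The middle statement from the blocks
-/

set_option linter.all false

namespace Vale.Agent.P286EA2

open CategoryTheory Vale.Agent.P286 Vale.Agent.P286.St Vale.Agent.P286E Vale.Agent.P286EK
  Vale.Agent.P286EU Vale.Agent.P286EX Vale.Agent.P286E48

noncomputable section

/-- The crystals are the cartesian modules over the twisted algebra of `W`. -/
def GENW (G : Grp) (σ : ℂ) (W : WA) : Prop :=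
  ∀ (I : Type) [SmallCategory I] (D : CD I) (xd : XD D) (s : ℂ),
    EQV (WD.st (QS D G s)) (wc (twB (σ * s) W xd))

/-- The algebra `W` describes the double covers. -/
def PLUS (W : WA) : Prop :=
  ∀ (I : Type) [SmallCategory I] (D : CD I) (xd : XD D) (lam : ℂ),
    ∃ k : ℤ, EQV (wc (twB lam W xd)) (um (xd.vfd.uk lam k))

/-- The algebra `W` describes the four branch points. -/
def MINUS (W : WA) : Prop :=
  ∀ (E : Ell) (e : Rt E) (xd : XD (D1 e)) (lam : ℂ), EQV (wc (twB lam W xd)) WD.v4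

/-- The algebra `W` splits. -/
def SPL (W W₁ W₂ : WA) : Prop :=
  ∀ (I : Type) [SmallCategory I] (D : CD I) (xd : XD D) (lam : ℂ),
    EQV (wc (twB lam W xd)) ((wc (twB lam W₁ xd)).prod (wc (twB lam W₂ xd)))

theorem mid_of (σ : ℤ) (hσ : σ * σ = 1) {W Wp Wm W3 : WA} (g2 : GENW SL2 σ W)
    (g3 : GENW SO3 σ W3) (sp : SPL W Wp Wm) (p2 : PLUS Wp) (p3 : PLUS W3) (hm : MINUS Wm) :
    MID := by
  intro E e s s' m m' _ h
  obtain ⟨k, h2⟩ := p2 _ _ (P286EL.xd1 e) (σ * s)
  obtain ⟨k', h3⟩ := p3 _ _ (P286EL.xd2 e) (σ * s')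
  have hs : (σ : ℂ) * σ = 1 := by exact_mod_cast hσ
  have hT := midT' E e (σ * s) (σ * s') k k' (σ * m) (σ * m') (by
    push_cast
    linear_combination h + (2 * s + m) * (2 * s' + m') * hs)
  have h4 : EQV (wc (twB (σ * s) Wp (P286EL.xd1 e))) (WD.st (QS (D2 e) SO3 s')) :=
    (h2.trans (hT.trans h3.symm)).trans (g3 _ _ (P286EL.xd2 e) s').symm
  exact ((g2 _ _ (P286EL.xd1 e) s).trans (sp _ _ _ _)).trans (h4.prod (hm E e _ _))

end

end Vale.Agent.P286EA2
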