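import Vale.Agent.P286EA2.End
import Vale.Agent.P286E57.Cut
import Vale.Agent.P286E50.Tw
import Vale.Agent.P286E99.Dtb
import Vale.Agent.P286E16.Eqv
import Vale.Agent.P286EP.Min

/-!
# The blocks from homomorphisms of weighted algebras
-/

set_option linter.all false

namespace Vale.Agent.P286EA2

open CategoryTheory Vale.Agent.P286 Vale.Agent.P286.St Vale.Agent.P286E Vale.Agent.P286EK
  Vale.Agent.P286EU Vale.Agent.P286EX Vale.Agent.P286E48 Vale.Agent.P286E99

noncomputable section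

/-- Kashiwara's equivalence for the double covers. -/
def KASH : Prop := ∀ (I : Type) [SmallCategory I] (D : CD I) (xd : XD D) (lam : ℂ),
  ∃ k : ℤ, EQV (wc (bT (cq xd.vfd lam 1) xd.sm)) (wc (uBx xd lam k))

theorem plus_B0 (h : KASH) : PLUS B0 := fun I _ D xd lam => by
  obtain ⟨k, hk⟩ := h I D xd lam
  exact ⟨k, ((dtb xd lam).trans hk).trans (eqv_uBx xd lam k)⟩

theorem plus_of {W : WA} (g : WH W B0) (h : MorH g.φ)
    (he : g.φ.e = ((1 / 2 : ℂ) • (1 + E4.w w0) : E4 w0)) (hB : PLUS B0) : PLUS W :=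
  fun I _ D xd lam => by
    obtain ⟨k, hk⟩ := hB I D xd lam
    exact ⟨k, (P286E57.wcut lam xd g h he).trans hk⟩

theorem minus_C0 (c : ℂ) : MINUS (C0 c) := fun _ e xd lam =>
  (dtc xd lam c).trans (P286EP.b1_v4 e xd _)

theorem MINUS.of {W W' : WA} (g : WH W W') (h1 : g.φ.e = 1) (h : MorH g.φ) (hm : MINUS W') :
    MINUS W := fun E e xd lam => (TW.eqv lam g xd h1 h).trans (hm E e xd lam)

theorem MINUS.of' {W W' : WA} (g : WH W' W) (h1 : g.φ.e = 1) (h : MorH g.φ) (hm : MINUS W') :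
    MINUS W := fun E e xd lam => (TW.eqv lam g xd h1 h).symm.trans (hm E e xd lam)

theorem minus_of {W : WA} {c : ℂ} (g : WH W (C0 c)) (h1 : g.φ.e = 1) (h : MorH g.φ) : MINUS W :=
  MINUS.of g h1 h (minus_C0 c)

theorem spl_of {W W₁ W₂ : WA} (g₁ : WH W₁ W) (g₂ : WH W₂ W) (h : P286E50.Spl g₁.φ g₂.φ) :
    SPL W W₁ W₂ := fun _ _ _ xd lam => P286E50.splitTW lam xd g₁ g₂ h

theorem genW_of (hG : GEN) {G : Grp} (K : GK G) (U : Rep K) (hU : U.Low) (σ : ℂ) (W : WA)
    (h : ∀ (I : Type) [SmallCategory I] (D : CD I) (xd : XD D) (s : ℂ),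
      ∃ P : PD K xd s U, P.dc = dcOf (twB (σ * s) W xd)) : GENW G σ W := fun I _ D xd s => by
  obtain ⟨P, hP⟩ := h I D xd s
  have := hG I D G s K xd U hU P
  rwa [hP, dcOf_wd] at this

end

end Vale.Agent.P286EA2
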