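import Vale.Agent.P286EA2.Fin1
import Vale.Agent.P286EX.Gen

/-!
# The middle statement
-/

namespace Vale.Agent.P286EA2

theorem mid : Vale.Agent.P286E.MID := mid_gen Vale.Agent.P286EX.gen

end Vale.Agent.P286EA2
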