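import Vale.Agent.P286EA2.End2
import Vale.Agent.P286E8.Pd
import Vale.Agent.P286E38.Gp
import Vale.Agent.P286EP.Plus
import Vale.Agent.P286EC.Gen

/-!
# The middle statement from the three remaining blocks
-/

set_option linter.all false

namespace Vale.Agent.P286EA2

open Vale.Agent.P286E Vale.Agent.P286EX Vale.Agent.P286EI Vale.Agent.P286EXR

theorem plus_triv {G : Grp} (K : GK G) : PLUS (AU (triv K)) :=
  plus_of (P286E38.gP K) (P286E38.gP_morH K) (P286E38.gP_e K) P286EP.plus_B0

theorem mid_of' (hG : GEN)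
    (hS : SPL (AU (u2 gkSL2)) (AU (triv gkSL2)) (AU (std gkSL2)))
    (hM : MINUS (AU (std gkSL2))) : MID :=
  mid_of 1 (one_mul 1) (P286E8.genU hG _ (low2 gkSL2)) (P286E8.genU hG _ (low3 gkSO3)) hS
    (plus_triv gkSL2) (plus_triv gkSO3) hM

end Vale.Agent.P286EA2
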