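import Vale.Agent.P286EA2.Fin0
import Vale.Agent.P286EX7.Od
import Vale.Agent.P286E17.Gm

/-!
# The middle statement from the generation theorem
-/

set_option linter.all false

namespace Vale.Agent.P286EA2

open Vale.Agent.P286E Vale.Agent.P286EX Vale.Agent.P286EI Vale.Agent.P286EXR

theorem minus_std : MINUS (AU (std gkSL2)) := by
  obtain ⟨g, h1, -, h⟩ := P286E17.gm gkSL2
  exact minus_of g h1 h

theorem mid_gen (hG : GEN) : MID := mid_of' hG (od gkSL2) minus_std

end Vale.Agent.P286EA2
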