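import Vale.Agent.P286EB.Main
import Vale.Agent.P286EO.Main
import Vale.Agent.P286EJG.Main
import Vale.Agent.P286EJB.Main
import Vale.Agent.P286EZ.Top

/-!
# The geometric part
-/

namespace Vale.Agent.P286EA2

open Vale.Agent.P286E

theorem geo1 : GEO1 := P286EB.geo1 P286EO.open2

theorem geo2 : GEO2 := P286EB.geo2 P286EO.open3 P286EJG.qp3 P286EJB.bkv

theorem qgl_of_mid (h : MID) : QGL := P286EZ.top geo1 geo2 h

end Vale.Agent.P286EA2
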